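import Vale.Agent.P277Z.Lbd.Glue
import Vale.Agent.P277Z.Lo.Base
import Vale.Agent.P272.K.Inv.Hess

/-!
# P277, block LBD: the line bundle of a divisor, metrics
-/

open scoped Manifold ContDiff
open Filter Topology Set
open Vale.Agent.P272.K
open Vale.Agent.P297 (Place)
open Vale.Agent.P297Z
open Vale.Agent.P285.H281.FD (Bd)

noncomputable section

namespace Vale.Agent.P277Z

section spsh

variable {n : ℕ} {W : Type} [TopologicalSpace W] [ChartedSpace (Cm n) W] {φ : W → ℝ} {u : W → ℂ}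
  {x : W}

theorem Spsh.cont (h : Spsh n φ x) : ContinuousAt φ x := by
  have he := at_chart (n := n) x
  exact ((h _ he).1.continuousAt.comp ((chartAt (Cm n) x).continuousAt he.2)).congr
    ((At.left he).mono fun y hy => congrArg φ hy)

theorem Hol.cont_log (hu : Hol n u x) (h0 : u x ≠ 0) :
    ContinuousAt (fun y => Real.log (‖u y‖ ^ 2)) x :=
  (hu.cont.norm.pow 2).log (pow_ne_zero _ (norm_ne_zero_iff.2 h0))

theorem Spsh.sub_log (h : Spsh n φ x) (hu : Hol n u x) (h0 : u x ≠ 0) :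
    Spsh n (fun y => φ y - Real.log (‖u y‖ ^ 2)) x := fun e he => by
  have h1 : u (e.symm (e x)) ≠ 0 := by rwa [e.left_inv he.2]
  have h2 : ContDiffAt ℝ ∞ (fun z => Real.log (‖u (e.symm z)‖ ^ 2)) (e x) :=
    ((((hu e he).contDiffAt (n := ∞)).restrict_scalars ℝ).norm_sq ℂ).log
      (pow_ne_zero _ (norm_ne_zero_iff.2 h1))
  have k : (2 : WithTop ℕ∞) ≤ ∞ := WithTop.coe_le_coe.2 (le_top (a := (2 : ℕ∞)))
  refine ⟨(h e he).1.sub h2, ?_⟩
  rw [cHess_sub ((h e he).1.of_le k) (h2.of_le k), cHess_log_norm_sq (hu e he).contDiffAt h1,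
    sub_zero]
  exact (h e he).2

end spsh

namespace Lb

variable {n N : ℕ} {K : Type} [Field K] [Algebra ℂ K] {M : Mdl n N K}

theorem gn_eqn {x : M.F} {P : Place K} (h : M.On x P) : M.Gn x P (M.eqn x P) := by
  simp only [Mdl.eqn, dif_pos h]; exact h.choose_spec

theorem eqn_of_not {x : M.F} {P : Place K} (h : ¬ M.On x P) : M.eqn x P = 1 := by
  simp only [Mdl.eqn, dif_neg h]

theorem eqn_ne (x : M.F) (P : Place K) : M.eqn x P ≠ 0 := by
  by_cases h : M.On x P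
  · exact fun e => by simpa [e] using (gn_eqn h).ord
  · rw [eqn_of_not h]; exact one_ne_zero

theorem ord_of_ne {x : M.F} {P : Place K} (h : M.On x P) {f : K} (hf : f ∈ M.O x)
    (h0 : M.val f x ≠ 0) : P.ord f = 0 :=
  Pl.ord_unit P ((gn_eqn h).le _ hf) ((gn_eqn h).le _ (M.inv_mem hf h0))

theorem unit_of (hL : Loc M) {x : M.F} {w : K} (hw : w ≠ 0) (h : ∀ P, M.On x P → P.ord w = 0) :
    w ∈ M.O x ∧ M.val w x ≠ 0 :=
  have h1 := hL.mem x w fun P hP => (h P hP).ge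
  ⟨h1, fun k => let ⟨P, h2, h3⟩ := hL.van x w h1 hw k; h3.ne' (h P h2)⟩

open Classical in
theorem near_ord (hL : Loc M) (x : M.F) (P : Place K) :
    ∀ᶠ y in 𝓝 x, ∀ Q, M.On y Q → Q.ord (M.eqn x P) = if P = Q then 1 else 0 := by
  by_cases h : M.On x P
  · filter_upwards [hL.near_gn x P _ (gn_eqn h), M.O_near (gn_eqn h).mem] with y hy h2 Q hQ
    split_ifs with e
    · exact e ▸ (gn_eqn h).ord
    · by_cases h3 : M.On y P
      · exact hL.other y P Q _ (hy.1 h3) hQ (Ne.symm e)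
      · exact ord_of_ne hQ h2 (hy.2 h3)
  · filter_upwards [hL.near x P] with y hy Q hQ
    rw [eqn_of_not h, Pl.ord_one, if_neg]
    exact fun e => h (hy (e ▸ hQ))

/-- the local equation at `x` of the divisor with support `S` and coefficients `k` -/
def eqD (M : Mdl n N K) (x : M.F) (S : Finset (Place K)) (k : Place K → ℤ) : K :=
  ∏ P ∈ S, M.eqn x P ^ k P

theorem eqD_ne (x : M.F) (S : Finset (Place K)) (k : Place K → ℤ) : eqD M x S k ≠ 0 :=
  Finset.prod_ne_zero_iff.2 fun P _ => zpow_ne_zero _ (eqn_ne x P)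

open Classical in
theorem near_eqD (hL : Loc M) (x : M.F) (S : Finset (Place K)) (k : Place K → ℤ) :
    ∀ᶠ y in 𝓝 x, ∀ Q, M.On y Q → Q.ord (eqD M x S k) = if Q ∈ S then k Q else 0 := by
  induction S using Finset.induction_on with
  | empty => exact .of_forall fun _ _ _ => by simp [eqD]
  | insert P S hP ih =>
    filter_upwards [ih, near_ord hL x P] with y h1 h2 Q hQ
    rw [eqD, Finset.prod_insert hP, ← eqD, Pl.ord_mul Q (zpow_ne_zero _ (eqn_ne x P)) (eqD_ne x S k),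
      Pl.ord_zpow, h1 Q hQ, h2 Q hQ]
    by_cases e : P = Q
    · subst e; simp [hP]
    · simp [e, Ne.symm e]

theorem lg_eq (x : M.F) {D : Div K} {k : Place K → ℤ} (h : ∀ P, M.On x P → D P = k P) :
    ∀ᶠ y in gen M.F, M.lg x D y = Real.log (‖M.val (eqD M x D.support k) y‖ ^ 2) := by
  filter_upwards [M.val_prod D.support fun P => M.eqn x P ^ k P,
    (eventually_all_finset D.support).2 fun P _ =>
      (M.val_zpow (M.eqn x P) (k P)).and (M.val_ne (eqn_ne x P))] with y h1 h2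
  rw [eqD, h1, norm_prod, ← Finset.prod_pow, Real.log_prod fun P hP => by
    rw [(h2 P hP).1]
    exact pow_ne_zero _ (norm_ne_zero_iff.2 (zpow_ne_zero _ (h2 P hP).2))]
  refine Finset.sum_congr rfl fun P hP => ?_
  rw [(h2 P hP).1, norm_zpow, Real.log_pow, Real.log_zpow]
  by_cases e : M.On x P
  · simp only [h P e, Real.log_pow]
    ring
  · simp [eqn_of_not e, M.val_one]

theorem ord_eqD (hL : Loc M) (x : M.F) {D : Div K} {k : Place K → ℤ} (h : ∀ P, D P = k P) :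
    ∀ᶠ y in 𝓝 x, ∀ Q, M.On y Q → D Q = Q.ord (eqD M x D.support k) := by
  filter_upwards [near_eqD hL x D.support k] with y hy Q hQ
  rw [hy Q hQ]
  split_ifs with e
  · exact h Q
  · simpa using e

/-- the line bundle of a divisor with the local equations `t x` -/
theorem build (hL : Loc M) {D : Div K} (t : M.F → K) (h0 : ∀ x, t x ≠ 0)
    (ht : ∀ x, ∀ᶠ y in 𝓝 x, ∀ Q, M.On y Q → D Q = Q.ord (t x)) (p : M.F → M.W → Prop)
    (hp : ∀ x : M.F, ∀ᶠ y in 𝓝 (x : M.W), p x y) :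
    ∃ (L : Bd M.W) (c : L.ι → M.F) (s : L.ι → M.W → ℂ), Finite L.ι ∧ M.Rep L D s ∧
      (∀ i, ∀ y ∈ L.U i, p (c i) y ∧ ∀ᶠ z in gen {y}, M.val (t (c i)) z ≠ 0) ∧
      (∀ i j y, y ∈ L.U i → y ∈ L.U j → ∀ᶠ z in gen {y},
        M.val (t (c i)) z = L.g i j z * M.val (t (c j)) z) ∧
      ∀ i y, ∀ᶠ z in gen {y}, s i z = M.val (t (c i)) z := by
  obtain ⟨L, c, s, h1, h2, h3, h4, h5, h6⟩ := glue M.toGeo (fun x => M.val (t x))
    (fun x => {y | (p x y ∧ ∀ᶠ z in gen {y}, M.val (t x) z ≠ 0) ∧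
      ∀ hy : y ∈ M.F, ∀ Q, M.On ⟨y, hy⟩ Q → D Q = Q.ord (t x)})
    (fun x => ((hp x).and (gen_near (M.at_pt (M.val_ne (h0 x)) x))).and (ev_sub (ht x)))
    (fun x y hy => hy.1.2) fun x x' y hy k k' => by
      refine ⟨M.val (t x / t x'), hL.mem ⟨y, hy⟩ _ fun Q hQ => ?_, ?_⟩
      · have := (k.2 hy Q hQ).symm.trans (k'.2 hy Q hQ)
        rw [Pl.ord_div Q (h0 x) (h0 x'), Int.cast_injective this, sub_self]
      · filter_upwards [gen_at (M.val_div (t x) (t x')) hy, k'.1.2] with z e1 e2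
        rw [e1, div_mul_cancel₀ _ e2]
  exact ⟨L, c, s, h1, ⟨h2, h5, fun x i hi => ⟨t (c i), fun _ => 1, h0 _, (h3 i hi).2 x.2,
    hol_const 1 _, one_ne_zero, (h6 i x).mono fun z hz => by rw [hz, one_mul]⟩⟩,
    fun i y hy => (h3 i hy).1, h4, h6⟩

theorem lbd_ex (hL : Loc M) : ∀ D, IsInt D → ∃ L s, M.Rep L D s := fun D hD => by
  choose k hk using hD
  obtain ⟨L, -, s, -, h, -⟩ := build hL (fun x => eqD M x D.support k) (fun x => eqD_ne x _ _)
    (fun x => ord_eqD hL x hk) (fun _ _ => True) fun _ => .of_forall fun _ => trivial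
  exact ⟨L, s, h⟩

theorem log_mul_sq {a b : ℂ} (ha : a ≠ 0) (hb : b ≠ 0) :
    Real.log (‖a * b‖ ^ 2) = Real.log (‖a‖ ^ 2) + Real.log (‖b‖ ^ 2) := by
  rw [norm_mul, mul_pow, Real.log_mul (pow_ne_zero _ (norm_ne_zero_iff.2 ha))
    (pow_ne_zero _ (norm_ne_zero_iff.2 hb))]

theorem lbd_pos (hL : Loc M) : ∀ D, IsInt D → M.Amp D → ∃ L s, M.Rep L D s ∧ M.PosB L := by
  intro D hD ⟨G, hG⟩
  choose k hk using hD
  choose φ h1 h2 using hG
  obtain ⟨L, c, s, -, h, h3, h4, -⟩ := build hL (fun x => eqD M x D.support k)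
    (fun x => eqD_ne x _ _) (fun x => ord_eqD hL x hk)
    (fun x y => Spsh n (φ x) y ∧ ∀ᶠ z in gen {y},
      G z = Real.log (‖M.val (eqD M x D.support k) z‖ ^ 2) - φ x z)
    fun x => (h1 x).and (gen_near (by
      filter_upwards [h2 x, M.at_pt (lg_eq x fun P _ => hk P) x] with z e1 e2 using e2 ▸ e1))
  refine ⟨L, s, h, fun i => φ (c i), h.lb, fun i y hy => (h3 i y hy).1.1, fun i j y hi hj => ?_⟩
  have hg := h.lb.holo i j y hi hj
  have g0 := h.lb.ne_zero i j y hi hj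
  refine tendsto_nhds_unique_of_eventuallyEq
    ((h3 i y hi).1.1.cont.tendsto.mono_left (gen_le_nhds y))
    (((h3 j y hj).1.1.cont.add (hg.cont_log g0)).tendsto.mono_left (gen_le_nhds y)) ?_
  filter_upwards [(h3 i y hi).1.2, (h3 j y hj).1.2, (h3 j y hj).2, h4 i j y hi hj,
    gen_of_nhds (hg.ne_near g0)] with z e1 e2 e3 e4 e5
  rw [e4, log_mul_sq e5 e3] at e1
  simp only [Pi.add_apply]
  linarith

theorem lbd_amp (hL : Loc M) : ∀ L D s, M.Rep L D s → M.PosB L → M.Amp D := by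
  classical
  intro L D s h ⟨ψ, _, h1, h2⟩
  refine ⟨fun y => if k : ∃ i, y ∈ L.U i then Real.log (‖s k.choose y‖ ^ 2) - ψ k.choose y else 0,
    fun x => ?_⟩
  obtain ⟨i, hi⟩ := h.lb.cover x x.2
  obtain ⟨t, u, t0, ht, hu, u0, e⟩ := h.loc x i hi
  set t' := eqD M x D.support fun P => P.ord t
  obtain ⟨w1, w2⟩ := unit_of hL (x := x) (div_ne_zero t0 (eqD_ne x _ _) : t / t' ≠ 0) fun Q hQ => by
    rw [Pl.ord_div Q t0 (eqD_ne x _ _), (near_eqD hL x _ _).self_of_nhds Q hQ]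
    split_ifs with k
    · exact sub_self _
    · have := (ht Q hQ).symm.trans (Finsupp.notMem_support_iff.1 k)
      rw [Int.cast_eq_zero.1 this, sub_self]
  have hw : Hol n (fun y => u y * M.val (t / t') y) x := hu.mul w1
  have w0 := hw.ne_near (mul_ne_zero u0 w2)
  have hU := (h.lb.isOpen i).eventually_mem hi
  refine ⟨fun y => ψ i y - Real.log (‖u y * M.val (t / t') y‖ ^ 2), ?_, ?_⟩
  · filter_upwards [hU, hw.near, w0] with y k1 k2 k3 using (h1 i y k1).sub_log k2 k3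
  · filter_upwards [gen_of_nhds hU, gen_of_nhds w0, e, M.at_pt (lg_eq x ht) x,
      M.at_pt (M.val_div t t') x, M.at_pt (M.val_ne (eqD_ne x _ _ : t' ≠ 0)) x]
      with y k1 k2 k3 k4 k5 k6
    have k : ∃ i, y ∈ L.U i := ⟨i, k1⟩
    have k7 : s i y = u y * M.val (t / t') y * M.val t' y := by
      rw [k3, k5, mul_assoc, div_mul_cancel₀ _ k6]
    rw [dif_pos k, h.chg _ i y k.choose_spec k1, h2 _ i y k.choose_spec k1, k7,
      log_mul_sq (h.lb.ne_zero _ i y k.choose_spec k1) (mul_ne_zero k2 k6), log_mul_sq k2 k6, k4]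
    ring

end Lb

end Vale.Agent.P277Z
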