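import Vale.Agent.P277Z.Luf.Hol
import Vale.Agent.P277Z.Lo.Base

/-!
# P277Z, block LBD: sections of a divisor and sections of its line bundle
-/

open scoped Manifold ContDiff Topology
open Set Filter
open Vale.Agent.P272.K (Cm Chart At)
open Vale.Agent.P297 (Place)
open Vale.Agent.P285.H281.FD (Bd)

noncomputable section

namespace Vale.Agent.P277Z.Lb

variable {n N : ℕ} {K : Type} [Field K] [Algebra ℂ K]

theorem lb_mul {G : Geo n N} {L L' : Bd G.W} (h : G.LB L) (h' : G.LB L') : G.LB (L.mul L') where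
  isOpen i := (h.isOpen i.1).inter (h'.isOpen i.2)
  cover x hx :=
    let ⟨i, hi⟩ := h.cover x hx
    let ⟨j, hj⟩ := h'.cover x hx
    ⟨(i, j), hi, hj⟩
  holo i j x hi hj := (h.holo i.1 j.1 x hi.1 hj.1).mul (h'.holo i.2 j.2 x hi.2 hj.2)
  ne_zero i j x hi hj := mul_ne_zero (h.ne_zero i.1 j.1 x hi.1 hj.1) (h'.ne_zero i.2 j.2 x hi.2 hj.2)
  cocycle i j k x hi hj hk := by
    show L.g i.1 j.1 x * L'.g i.2 j.2 x * (L.g j.1 k.1 x * L'.g j.2 k.2 x) =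
      L.g i.1 k.1 x * L'.g i.2 k.2 x
    rw [← h.cocycle i.1 j.1 k.1 x hi.1 hj.1 hk.1, ← h'.cocycle i.2 j.2 k.2 x hi.2 hj.2 hk.2]
    ring

theorem lb_pow {G : Geo n N} {L : Bd G.W} (h : G.LB L) (m : ℕ) : G.LB (L.pow m) where
  isOpen := h.isOpen
  cover := h.cover
  holo i j x hi hj := (h.holo i j x hi hj).pow m
  ne_zero i j x hi hj := pow_ne_zero m (h.ne_zero i j x hi hj)
  cocycle i j k x hi hj hk := by
    show L.g i j x ^ m * L.g j k x ^ m = L.g i k x ^ m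
    rw [← mul_pow, h.cocycle i j k x hi hj hk]

namespace SecAux

theorem lim_eq {W : Type} [TopologicalSpace W] [ChartedSpace (Cm n) W] {a h : W → ℂ} {y : W}
    (hh : Hol n h y) (e : ∀ᶠ z in gen {y}, a z = h z) : limUnder (gen {y}) a = h y :=
  ((hh.cont.tendsto.mono_left (gen_le_nhds y)).congr' (e.mono fun _ => Eq.symm)).limUnder_eq

end SecAux

open SecAux

variable (M : Mdl n N K)

/-- the quotient of two meromorphic sections -/
theorem quot {L : Bd M.W} (hL : M.LB L) {a b : L.ι → M.W → ℂ}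
    (hc : ∀ᶠ y in 𝓝ˢ M.F, ∀ i j, y ∈ L.U i → y ∈ L.U j →
      a i y = L.g i j y * a j y ∧ b i y = L.g i j y * b j y)
    (hm : ∀ (x : M.F) i, (x : M.W) ∈ L.U i → Mer n (a i) x ∧ Mer n (b i) x ∧
      ∀ᶠ y in gen {(x : M.W)}, b i y ≠ 0) :
    ∃ f, ∀ (x : M.F) i, (x : M.W) ∈ L.U i →
      ∀ᶠ y in gen {(x : M.W)}, a i y = M.val f y * b i y := by
  classical
  set q : M.W → ℂ := fun y => if h : ∃ i, y ∈ L.U i then a h.choose y / b h.choose y else 0 with hq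
  have key : ∀ (x : M.F) i, (x : M.W) ∈ L.U i → ∀ᶠ y in gen {(x : M.W)}, a i y / b i y = q y := by
    intro x i hi
    refine gen_of_nhds ?_
    filter_upwards [hc.filter_mono (nhds_le_nhdsSet x.2), (hL.isOpen i).mem_nhds hi] with y h1 h2
    have h3 : ∃ i, y ∈ L.U i := ⟨i, h2⟩
    obtain ⟨h4, h5⟩ := h1 i _ h2 h3.choose_spec
    rw [hq]
    beta_reduce
    rw [dif_pos h3, h4, h5, mul_div_mul_left _ _ (hL.ne_zero i _ y h2 h3.choose_spec)]
  obtain ⟨f, hf⟩ := M.surj q fun x hx => by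
    obtain ⟨i, hi⟩ := hL.cover x hx
    obtain ⟨h1, h2, -⟩ := hm ⟨x, hx⟩ i hi
    exact Lo.mer_congr (Lo.mer_div h1 h2) (key ⟨x, hx⟩ i hi)
  refine ⟨f, fun x i hi => ?_⟩
  filter_upwards [M.at_pt hf x, key x i hi, (hm x i hi).2.2] with y h1 h2 h3
  rw [h1, ← h2, div_mul_cancel₀ _ h3]

theorem sec_hol {G : Geo n N} {L : Bd G.W} {a : L.ι → G.W → ℂ} (h : G.Sec L a) {x : G.W}
    (hx : x ∈ G.F) {i : L.ι} (hi : x ∈ L.U i) : Hol n (a i) x :=
  (h.self_of_nhdsSet x hx i hi).1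

/-- the quotient of two holomorphic sections -/
theorem ratio {L : Bd M.W} (hL : M.LB L) {a b : L.ι → M.W → ℂ} (ha : M.Sec L a) (hb : M.Sec L b)
    (h0 : ∀ x ∈ M.F, ∀ i, x ∈ L.U i → Nz (b i) x) :
    ∃ f, ∀ (x : M.F) i, (x : M.W) ∈ L.U i →
      ∀ᶠ y in gen {(x : M.W)}, a i y = M.val f y * b i y :=
  quot M hL ((ha.and hb).mono fun _ h i j hi hj => ⟨(h.1 i hi).2 j hj, (h.2 i hi).2 j hj⟩)
    fun x i hi => ⟨Lo.mer_of_hol (sec_hol ha x.2 hi), Lo.mer_of_hol (sec_hol hb x.2 hi),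
      (h0 x x.2 i hi).gen (sec_hol hb x.2 hi)⟩

theorem lbd_sec (hL : Loc M) : ∀ L D s f, M.Rep L D s → f ∈ M.H0 D →
    ∃ σ, M.Sec L σ ∧ M.Mul s f σ := by
  intro L D s f hR hf
  have key : ∀ (x : M.F) i, (x : M.W) ∈ L.U i → ∃ h : M.W → ℂ, Hol n h x ∧
      ∀ᶠ y in gen {(x : M.W)}, M.val f y * s i y = h y := by
    intro x i hi
    obtain ⟨t, u, h1, h2, h3, -, h5⟩ := hR.loc x i hi
    have h6 : f * t ∈ M.O x := by
      by_cases f0 : f = 0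
      · rw [f0, zero_mul]
        exact zero_mem _
      refine hL.mem x _ fun P hP => ?_
      have := hf.resolve_left f0 P ⟨x, hP⟩
      rw [h2 P hP] at this
      rw [P297Z.Pl.ord_mul P f0 h1]
      exact_mod_cast this
    refine ⟨_, h3.mul h6, ?_⟩
    filter_upwards [h5, M.at_pt (M.val_mul f t) x] with y k1 k2
    rw [k1, k2]
    ring
  refine ⟨fun i y => limUnder (gen {y}) fun z => M.val f z * s i z,
    eventually_nhdsSet_iff_forall.2 fun x hx => ?_, fun x i hi => ?_⟩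
  · obtain ⟨i₀, hi₀⟩ := hR.lb.cover x hx
    obtain ⟨h, h1, h2⟩ := key ⟨x, hx⟩ i₀ hi₀
    have h3 : ∀ᶠ y in 𝓝 x, y ∈ L.U i₀ ∧ Hol n h y ∧ ∀ i, y ∈ L.U i →
        (limUnder (gen {y}) fun z => M.val f z * s i z) = L.g i i₀ y * h y := by
      filter_upwards [(hR.lb.isOpen i₀).mem_nhds hi₀, h1.near, gen_near h2] with y k1 k2 k3
      refine ⟨k1, k2, fun i hi => lim_eq ((hR.lb.holo i i₀ y hi k1).mul k2) ?_⟩
      filter_upwards [k3, gen_of_nhds ((hR.lb.isOpen i).mem_nhds hi),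
        gen_of_nhds ((hR.lb.isOpen i₀).mem_nhds k1)] with z l1 l2 l3
      rw [hR.chg i i₀ z l2 l3, ← l1]
      ring
    filter_upwards [h3.eventually_nhds] with y k i hi
    obtain ⟨k1, k2, k3⟩ := k.self_of_nhds
    refine ⟨((hR.lb.holo i i₀ y hi k1).mul k2).congr ?_, fun j hj => ?_⟩
    · filter_upwards [k, (hR.lb.isOpen i).mem_nhds hi] with z l1 l2 using (l1.2.2 i l2).symm
    · rw [k3 i hi, k3 j hj, ← hR.lb.cocycle i j i₀ y hi hj k1, mul_assoc]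
  · obtain ⟨h, h1, h2⟩ := key x i hi
    filter_upwards [h2, gen_of_nhds h1.near, gen_of_nhds (gen_near h2)] with y k1 k2 k3
    rw [lim_eq k2 k3, k1]

/-- the local form of the section `f s` -/
theorem mul_loc {L : Bd M.W} {D : Div K} {s σ : L.ι → M.W → ℂ} {f : K} (hR : M.Rep L D s)
    (hσ : M.Sec L σ) (hM : M.Mul s f σ) (x : M.F) {i : L.ι} (hi : (x : M.W) ∈ L.U i) :
    ∃ t : K, t ≠ 0 ∧ (∀ P, M.On x P → D P = P.ord t) ∧ f * t ∈ M.O x ∧
      (σ i x ≠ 0 ↔ M.val (f * t) x ≠ 0) := by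
  obtain ⟨t, u, h1, h2, h3, h4, h5⟩ := hR.loc x i hi
  have h6 := (sec_hol hσ x.2 hi).div h3 h4
  have h7 : ∀ᶠ y in gen {(x : M.W)}, M.val (f * t) y = σ i y / u y := by
    filter_upwards [h5, M.at_pt (M.val_mul f t) x, hM x i hi, gen_of_nhds (h3.ne_near h4)]
      with y k1 k2 k3 k4
    rw [k2, k3, k1]
    field_simp
  refine ⟨t, h1, h2, M.mem_O_of h6 h7, ?_⟩
  rw [M.val_eq_at h6 h7, div_ne_zero_iff, and_iff_left h4]

theorem lbd_fn : ∀ L D s σ, M.Rep L D s → M.Sec L σ → ∃ f ∈ M.H0 D, M.Mul s f σ := by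
  intro L D s σ hR hσ
  obtain ⟨f, hf⟩ := quot M hR.lb (a := σ) (b := s)
    (hσ.mono fun y h i j hi hj => ⟨(h i hi).2 j hj, hR.chg i j y hi hj⟩) fun x i hi => by
      obtain ⟨t, u, h1, -, h3, h4, h5⟩ := hR.loc x i hi
      refine ⟨Lo.mer_of_hol (sec_hol hσ x.2 hi), Lo.mer_congr
        (Lo.mer_mul (Lo.mer_of_hol h3) (M.mer t x x.2)) (h5.mono fun _ => Eq.symm), ?_⟩
      filter_upwards [h5, gen_of_nhds (h3.ne_near h4), M.at_pt (M.val_ne h1) x] with y k1 k2 k3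
      rw [k1]
      exact mul_ne_zero k2 k3
  refine ⟨f, or_iff_not_imp_left.2 fun f0 P ⟨x, hP⟩ => ?_, hf⟩
  obtain ⟨i, hi⟩ := hR.lb.cover x x.2
  obtain ⟨t, h1, h2, h3, -⟩ := mul_loc M hR hσ hf x hi
  have := P297Z.Pl.ord_nonneg_of_mem P (hP.choose_spec.le _ h3)
  rw [P297Z.Pl.ord_mul P f0 h1] at this
  rw [h2 P hP]
  exact_mod_cast this

theorem lbd_nz (hL : Loc M) : ∀ L D s f σ (x : M.F) i, M.Rep L D s → M.Sec L σ → M.Mul s f σ →
    (x : M.W) ∈ L.U i →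
    (σ i x ≠ 0 ↔ f ≠ 0 ∧ ∀ P, M.On x P → (P.ord f : ℝ) + D P = 0) := by
  intro L D s f σ x i hR hσ hM hi
  obtain ⟨t, h1, h2, h3, h4⟩ := mul_loc M hR hσ hM x hi
  rw [h4]
  refine ⟨fun h => ?_, fun ⟨f0, h⟩ h5 => ?_⟩
  · have f0 : f ≠ 0 := fun e => h (by rw [e, zero_mul, M.val_zero])
    refine ⟨f0, fun P hP => ?_⟩
    have := P297Z.Pl.ord_unit P (hP.choose_spec.le _ h3) (hP.choose_spec.le _ (hL.inv x _ h3 h))
    rw [P297Z.Pl.ord_mul P f0 h1] at this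
    rw [h2 P hP]
    exact_mod_cast this
  · obtain ⟨P, hP, h6⟩ := hL.van x _ h3 (mul_ne_zero f0 h1) h5
    have := h P hP
    rw [h2 P hP] at this
    rw [P297Z.Pl.ord_mul P f0 h1] at h6
    exact h6.ne' (by exact_mod_cast this)

theorem lbd_mul : ∀ L D s L' D' s', M.Rep L D s → M.Rep L' D' s' →
    M.Rep (L.mul L') (D + D') fun i y => s i.1 y * s' i.2 y := by
  intro L D s L' D' s' h h'
  refine ⟨lb_mul h.lb h'.lb, fun i j y hi hj => ?_, fun x i hi => ?_⟩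
  · show _ = L.g i.1 j.1 y * L'.g i.2 j.2 y * _
    rw [h.chg i.1 j.1 y hi.1 hj.1, h'.chg i.2 j.2 y hi.2 hj.2]
    ring
  · obtain ⟨t, u, h1, h2, h3, h4, h5⟩ := h.loc x i.1 hi.1
    obtain ⟨t', u', k1, k2, k3, k4, k5⟩ := h'.loc x i.2 hi.2
    refine ⟨t * t', _, mul_ne_zero h1 k1, fun P hP => ?_, h3.mul k3, mul_ne_zero h4 k4, ?_⟩
    · rw [Finsupp.add_apply, h2 P hP, k2 P hP, P297Z.Pl.ord_mul P h1 k1, Int.cast_add]
    · filter_upwards [h5, k5, M.at_pt (M.val_mul t t') x] with y a b c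
      rw [a, b, c]
      ring

theorem lbd_pow : ∀ L D s (m : ℕ), M.Rep L D s →
    M.Rep (L.pow m) ((m : ℝ) • D) fun i y => s i y ^ m := by
  intro L D s m h
  refine ⟨lb_pow h.lb m, fun i j y hi hj => ?_, fun x i hi => ?_⟩
  · show _ = L.g i j y ^ m * _
    rw [h.chg i j y hi hj, mul_pow]
  · obtain ⟨t, u, h1, h2, h3, h4, h5⟩ := h.loc x i hi
    refine ⟨t ^ m, _, pow_ne_zero m h1, fun P hP => ?_, h3.pow m, pow_ne_zero m h4, ?_⟩
    · rw [Finsupp.smul_apply, h2 P hP, P297Z.Pl.ord_pow, smul_eq_mul, Int.cast_mul,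
        Int.cast_natCast]
    · filter_upwards [h5, M.at_pt (M.val_pow t m) x] with y a b
      rw [a, b, mul_pow]

end Vale.Agent.P277Z.Lb
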