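import Vale.Agent.P277Z.Spec2

/-!
# P277Z, block LBD: the canonical bundle
-/

open scoped Manifold ContDiff Topology
open Set Filter
open Vale.Agent.P272.K (Cm Chart At jacM dz)
open Vale.Agent.P285.H281.FD (Bd)

noncomputable section

namespace Vale.Agent.P277Z.Lb

section mfd

variable {n : ℕ} {W : Type} [TopologicalSpace W] [ChartedSpace (Cm n) W]
  [IsManifold 𝓘(ℂ, Cm n) ω W] {e e' : Chart n W} {x : W}

namespace CanH

theorem dz_hol {f : Cm n → ℂ} {z : Cm n} (h : DifferentiableAt ℂ f z) (i : Fin n) :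
    dz i f z = fderiv ℂ f z (Pi.single i 1) := by
  have h1 : (Pi.single i Complex.I : Cm n) = Complex.I • (Pi.single i 1 : Cm n) := by
    rw [← Pi.single_smul, smul_eq_mul, mul_one]
  rw [dz, (h.hasFDerivAt.restrictScalars ℝ).fderiv, ContinuousLinearMap.coe_restrictScalars', h1,
    map_smul, smul_eq_mul, ← mul_assoc, Complex.I_mul_I]
  ring

theorem jacM_det (he : At e x) (he' : At e' x) :
    (jacM e e' x).det = jd (fun i y => e' y i) e x := by
  have hd := (trans_an he' he).differentiableAt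
  rw [jd, ← LinearMap.det_toMatrix']
  congr 1
  ext p i
  rw [LinearMap.toMatrix'_apply, jacM, Matrix.of_apply, dz_hol (differentiableAt_pi.1 hd p),
    fderiv_apply hd p]
  rfl

omit [IsManifold 𝓘(ℂ, Cm n) ω W] in
theorem ev_comp {E : Type} (G : W → E) (he : At e x) (he' : At e' x) :
    (fun z => G (e.symm z)) =ᶠ[𝓝 (e x)] (fun z => G (e'.symm z)) ∘ fun z => e' (e.symm z) :=
  ((e.tendsto_symm he.2).eventually (e'.eventually_left_inverse he'.2)).mono fun _ h =>
    congrArg G h.symm

theorem diff_chg {G : W → Cm n} (he : At e x) (he' : At e' x)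
    (h : DifferentiableAt ℂ (fun z => G (e'.symm z)) (e' x)) :
    HasFDerivAt (fun z => G (e.symm z)) ((fderiv ℂ (fun z => G (e'.symm z)) (e' x)).comp
      (fderiv ℂ (fun z => e' (e.symm z)) (e x))) (e x) := by
  have h1 : HasFDerivAt (fun z => G (e'.symm z)) (fderiv ℂ (fun z => G (e'.symm z)) (e' x))
      (e' (e.symm (e x))) := by
    rw [e.left_inv he.2]
    exact h.hasFDerivAt
  exact (h1.comp (e x) (trans_an he' he).differentiableAt.hasFDerivAt).congr_of_eventuallyEq
    (ev_comp G he he')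

theorem fderiv_chg (G : W → Cm n) (he : At e x) (he' : At e' x) :
    fderiv ℂ (fun z => G (e.symm z)) (e x) = (fderiv ℂ (fun z => G (e'.symm z)) (e' x)).comp
      (fderiv ℂ (fun z => e' (e.symm z)) (e x)) := by
  by_cases h : DifferentiableAt ℂ (fun z => G (e'.symm z)) (e' x)
  · exact (diff_chg he he' h).fderiv
  · rw [fderiv_zero_of_not_differentiableAt h, fderiv_zero_of_not_differentiableAt
      fun h' => h (diff_chg he' he h').differentiableAt, ContinuousLinearMap.zero_comp]

theorem an_det {G : Cm n → Cm n} {z : Cm n} (h : AnalyticAt ℂ G z) :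
    AnalyticAt ℂ (fun w => LinearMap.det (fderiv ℂ G w : Cm n →ₗ[ℂ] Cm n)) z := by
  simp only [← LinearMap.det_toMatrix', Matrix.det_apply', LinearMap.toMatrix'_apply]
  refine Finset.analyticAt_fun_sum _ fun σ _ => analyticAt_const.mul
    (Finset.analyticAt_fun_prod _ fun i _ => ?_)
  exact (((ContinuousLinearMap.proj (R := ℂ) (φ := fun _ : Fin n => ℂ) (σ i)).comp
    (ContinuousLinearMap.apply ℂ (Cm n) (Pi.single i 1 : Cm n))).analyticAt _).comp h.fderiv

end CanH

/-- the change of the chart in the Jacobian determinant -/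
theorem jd_chg (g : Fin n → W → ℂ) (he : At e x) (he' : At e' x) :
    jd g e x = (jacM e e' x).det * jd g e' x := by
  rw [CanH.jacM_det he he', jd, jd, jd, CanH.fderiv_chg (fun y i => g i y) he he', mul_comm]
  exact LinearMap.det_comp _ _

theorem hol_jd {g : Fin n → W → ℂ} (hg : ∀ i, Hol n (g i) x) (he : At e x) :
    Hol n (jd g e) x := by
  refine Hol.of_chart he ((CanH.an_det (G := fun z i => g i (e.symm z))
    (AnalyticAt.pi fun i => hg i e he)).congr ?_)
  filter_upwards [e.eventually_right_inverse' he.2] with z hz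
  rw [jd, hz]

theorem hol_crd (he : At e x) (i : Fin n) : Hol n (fun y => e y i) x := fun _ he' =>
  analyticAt_pi_iff.1 (trans_an he he') i

theorem jacM_self (he : At e x) : (jacM e e x).det = 1 := by
  have h : (fun z i => e (e.symm z) i) =ᶠ[𝓝 (e x)] id := e.eventually_right_inverse' he.2
  rw [CanH.jacM_det he he, jd, h.fderiv_eq, fderiv_id, ContinuousLinearMap.coe_id,
    LinearMap.det_id]

theorem jacM_mul {e'' : Chart n W} (he : At e x) (he' : At e' x) (he'' : At e'' x) :
    (jacM e e' x).det * (jacM e' e'' x).det = (jacM e e'' x).det := by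
  rw [CanH.jacM_det he he'', CanH.jacM_det he' he'', ← jd_chg _ he he']

end mfd

variable {n N : ℕ}

theorem lb_can (G : Geo n N) : G.LB (Bd.can n G.W) where
  isOpen e := isOpen_iff_mem_nhds.2 fun _ hx =>
    (e.open_source.eventually_mem hx.2).mono fun _ h => ⟨hx.1, h⟩
  cover x _ := ⟨chartAt (Cm n) x, chart_mem_atlas _ _, mem_chart_source _ _⟩
  holo e e' x he he' := (hol_jd (hol_crd he') he).congr (by
    filter_upwards [e.open_source.mem_nhds he.2, e'.open_source.mem_nhds he'.2] with y h h'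
    exact (CanH.jacM_det ⟨he.1, h⟩ ⟨he'.1, h'⟩).symm)
  ne_zero _ _ _ he he' := left_ne_zero_of_mul_eq_one ((jacM_mul he he' he).trans (jacM_self he))
  cocycle _ _ _ _ he he' he'' := jacM_mul he he' he''

variable {K : Type} [Field K] [Algebra ℂ K] (M : Mdl n N K)

theorem lbd_can (hL : Loc M) :
    ∀ g κ, M.Can g κ → M.Rep (Bd.can n M.W) κ fun e y => jd (fun i => M.val (g i)) e y := by
  intro g κ h
  refine ⟨lb_can M.toGeo, fun e e' y he he' => jd_chg _ he he', fun x e he => ?_⟩
  obtain ⟨t, ht⟩ := hL.coord x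
  obtain ⟨j, hj⟩ := hL.jac x t g ht
  obtain ⟨h1, h2⟩ := h.2 x t j ht hj
  exact ⟨j, jd (fun i => M.val (t i)) e, h1, h2, hol_jd (fun i => (ht.1 i).1) he, ht.2 e he,
    (hj x x.2 e he).mono fun y hy => hy.trans (mul_comm _ _)⟩

end Vale.Agent.P277Z.Lb
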