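import Vale.Agent.P277Z.Luf.Hol
import Vale.Agent.P277Z.Lo.Base

/-!
# P277Z, block LBD: line bundles have meromorphic sections
-/

open scoped Manifold ContDiff Topology
open Set Filter
open Vale.Agent.P272.K (Cm Chart At)
open Vale.Agent.P297 (Place)
open Vale.Agent.P285.H281.FD (Bd)

noncomputable section

namespace Vale.Agent.P277Z.Lb

variable {n N : ℕ} {K : Type} [Field K] [Algebra ℂ K]

namespace Me

theorem lb_mul {G : Geo n N} {L A : Bd G.W} (hL : G.LB L) (hA : G.LB A) : G.LB (L.mul A) where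
  isOpen i := (hL.isOpen i.1).inter (hA.isOpen i.2)
  cover x hx :=
    let ⟨i, hi⟩ := hL.cover x hx
    let ⟨j, hj⟩ := hA.cover x hx
    ⟨(i, j), hi, hj⟩
  holo i j x hi hj := (hL.holo _ _ x hi.1 hj.1).mul (hA.holo _ _ x hi.2 hj.2)
  ne_zero i j x hi hj := mul_ne_zero (hL.ne_zero _ _ x hi.1 hj.1) (hA.ne_zero _ _ x hi.2 hj.2)
  cocycle i j k x hi hj hk := by
    change L.g _ _ x * A.g _ _ x * (L.g _ _ x * A.g _ _ x) = L.g _ _ x * A.g _ _ x
    rw [← hL.cocycle _ _ _ x hi.1 hj.1 hk.1, ← hA.cocycle _ _ _ x hi.2 hj.2 hk.2]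
    ring

theorem lb_pow {G : Geo n N} {A : Bd G.W} (hA : G.LB A) (m : ℕ) : G.LB (A.pow m) where
  isOpen := hA.isOpen
  cover := hA.cover
  holo i j x hi hj := (hA.holo i j x hi hj).pow m
  ne_zero i j x hi hj := pow_ne_zero m (hA.ne_zero i j x hi hj)
  cocycle i j k x hi hj hk := by
    change A.g i j x ^ m * A.g j k x ^ m = A.g i k x ^ m
    rw [← mul_pow, hA.cocycle i j k x hi hj hk]

theorem lb_self {G : Geo n N} {A : Bd G.W} (hA : G.LB A) {i : A.ι} {x : G.W} (hi : x ∈ A.U i) :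
    A.g i i x = 1 :=
  mul_left_cancel₀ (hA.ne_zero i i x hi hi) ((hA.cocycle i i i x hi hi hi).trans (mul_one _).symm)

/-- the trivial bundle -/
def triv (W : Type) : Bd W := ⟨Unit, fun _ => univ, fun _ _ _ => 1⟩

theorem lb_triv (G : Geo n N) : G.LB (triv G.W) where
  isOpen _ := isOpen_univ
  cover _ _ := ⟨(), trivial⟩
  holo _ _ x _ _ := hol_const 1 x
  ne_zero _ _ _ _ _ := one_ne_zero
  cocycle _ _ _ _ _ _ _ := one_mul _

theorem sec_at {G : Geo n N} {B : Bd G.W} {a : B.ι → G.W → ℂ} (ha : G.Sec B a) {x : G.W}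
    (hx : x ∈ G.F) : ∀ᶠ y in 𝓝 x, ∀ i, y ∈ B.U i →
      Hol n (a i) y ∧ ∀ j, y ∈ B.U j → a i y = B.g i j y * a j y :=
  Filter.Eventually.filter_mono (nhds_le_nhdsSet hx) ha

theorem sec_hol {G : Geo n N} {B : Bd G.W} {a : B.ι → G.W → ℂ} (ha : G.Sec B a) {x : G.W}
    (hx : x ∈ G.F) {i : B.ι} (hi : x ∈ B.U i) : Hol n (a i) x :=
  ((sec_at ha hx).self_of_nhds i hi).1

/-- a section which is not zero at one point is generically not zero -/
theorem sec_gen {G : Geo n N} {B : Bd G.W} (hB : G.LB B) {a : B.ι → G.W → ℂ} (ha : G.Sec B a)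
    {x₀ : G.W} (hx₀ : x₀ ∈ G.F) (h0 : ∀ i, x₀ ∈ B.U i → a i x₀ ≠ 0) {x : G.W} (hx : x ∈ G.F)
    {i : B.ι} (hi : x ∈ B.U i) : ∀ᶠ y in gen {x}, a i y ≠ 0 := by
  have h := G.conn.isPreconnected.subset_or_subset
    (u := {x | ∀ᶠ z in 𝓝 x, (∃ i, z ∈ B.U i) ∧ ∀ i, z ∈ B.U i → a i z = 0})
    (v := {x | ∀ᶠ z in 𝓝 x, ∀ᶠ y in gen {z}, ∀ i, y ∈ B.U i → a i y ≠ 0})
    isOpen_setOfPred_eventually_nhds isOpen_setOfPred_eventually_nhds
    (disjoint_left.2 fun x h1 h2 => by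
      obtain ⟨y, ⟨⟨j, hj⟩, k1⟩, k2⟩ := ((gen_of_nhds h1).and (gen_of_near h2)).exists
      exact k2 j hj (k1 j hj))
    fun x hx => by
      obtain ⟨j, hj⟩ := hB.cover x hx
      have hU := (hB.isOpen j).mem_nhds hj
      by_cases k : Nz (a j) x
      · refine Or.inr (gen_near ?_)
        filter_upwards [k.gen (sec_hol ha hx hj), gen_of_nhds hU, gen_of_nhds (sec_at ha hx)]
          with y k1 k2 k3 l hl
        rw [(k3 l hl).2 j k2]
        exact mul_ne_zero (hB.ne_zero l j y hl k2) k1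
      · refine Or.inl ?_
        filter_upwards [not_not.1 k, hU, sec_at ha hx] with y k1 k2 k3
        exact ⟨⟨j, k2⟩, fun l hl => by rw [(k3 l hl).2 j k2, k1, mul_zero]⟩
  rcases h with h | h
  · obtain ⟨⟨j, hj⟩, k⟩ := (h hx₀).self_of_nhds
    exact absurd (k j hj) (h0 j hj)
  · filter_upwards [gen_of_near (h hx), gen_of_nhds ((hB.isOpen i).mem_nhds hi)] with y k1 k2
      using k1 i k2

/-- the quotient of two sections -/
theorem ratio (M : Mdl n N K) {B : Bd M.W} (hB : M.LB B) {a b : B.ι → M.W → ℂ} (ha : M.Sec B a)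
    (hb : M.Sec B b) (h0 : ∀ x ∈ M.F, ∀ i, x ∈ B.U i → ∀ᶠ y in gen {x}, b i y ≠ 0) :
    ∃ f : K, M.Mul b f a := by
  classical
  let c : M.W → ℂ := fun y => if h : ∃ i, y ∈ B.U i then a h.choose y / b h.choose y else 0
  have hc : ∀ x ∈ M.F, ∀ i, x ∈ B.U i → ∀ᶠ y in 𝓝 x, c y = a i y / b i y := by
    intro x hx i hi
    filter_upwards [(hB.isOpen i).mem_nhds hi, sec_at ha hx, sec_at hb hx] with y k1 k2 k3
    have h : ∃ i, y ∈ B.U i := ⟨i, k1⟩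
    simp only [c, dif_pos h]
    rw [(k2 _ h.choose_spec).2 i k1, (k3 _ h.choose_spec).2 i k1,
      mul_div_mul_left _ _ (hB.ne_zero _ i y h.choose_spec k1)]
  obtain ⟨f, hf⟩ := M.surj c fun x hx => by
    obtain ⟨i, hi⟩ := hB.cover x hx
    exact Lo.mer_congr (Lo.mer_div (Lo.mer_of_hol (sec_hol ha hx hi))
      (Lo.mer_of_hol (sec_hol hb hx hi))) (gen_of_nhds ((hc x hx i hi).mono fun _ => Eq.symm))
  refine ⟨f, fun x i hi => ?_⟩
  filter_upwards [M.at_pt hf x, gen_of_nhds (hc x x.2 i hi), h0 x x.2 i hi] with y k1 k2 k3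
  rw [k1, k2, div_mul_cancel₀ _ k3]

/-- the divisor of a section of a bundle that is generated by its sections -/
theorem gg_div (M : Mdl n N K) (hL : Loc M) {B : Bd M.W} (hB : M.LB B)
    (σ : M.F → B.ι → M.W → ℂ) (hσ : ∀ x, M.Sec B (σ x))
    (h0 : ∀ (x : M.F) i, (x : M.W) ∈ B.U i → σ x i x ≠ 0) (x₀ : M.F) :
    ∃ D : Div K, M.Dv D ∧ IsInt D ∧ ∀ (x : M.F) i, (x : M.W) ∈ B.U i →
      ∃ (t : K) (u : M.W → ℂ), t ≠ 0 ∧ (∀ P, M.On x P → D P = P.ord t) ∧ Hol n u x ∧ u x ≠ 0 ∧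
        ∀ᶠ y in gen {(x : M.W)}, σ x₀ i y = u y * M.val t y := by
  classical
  have hg : ∀ x, ∀ z ∈ M.F, ∀ i, z ∈ B.U i → ∀ᶠ y in gen {z}, σ x i y ≠ 0 :=
    fun x z hz i hi => sec_gen hB (hσ x) x.2 (h0 x) hz hi
  choose T hT using fun x => ratio M hB (hσ x₀) (hσ x) (hg x)
  have hT0 : ∀ x, T x ≠ 0 := fun x h => by
    obtain ⟨i, hi⟩ := hB.cover x x.2
    obtain ⟨y, k1, k2⟩ := ((hT x x i hi).and (hg x₀ x x.2 i hi)).exists
    exact k2 (by rw [k1, h, M.val_zero, zero_mul])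
  have hle : ∀ (x y z : M.F) i P, (z : M.W) ∈ B.U i → σ x i z ≠ 0 → M.On z P →
      P.ord (T y) ≤ P.ord (T x) := by
    rintro x y z i P hi hz ⟨t, ht⟩
    have h1 : T x / T y ∈ M.O z := by
      refine M.mem_O_of ((sec_hol (hσ y) z.2 hi).div (sec_hol (hσ x) z.2 hi) hz) ?_
      filter_upwards [M.at_pt (M.val_div (T x) (T y)) z, hT x z i hi, hT y z i hi,
        M.at_pt (M.val_ne (hT0 y)) z, hg x z z.2 i hi] with w k1 k2 k3 k4 k5
      rw [k1, div_eq_div_iff k4 k5, ← k2, k3, mul_comm]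
    have h2 := P297Z.Pl.ord_nonneg_of_mem P (ht.le _ h1)
    rw [P297Z.Pl.ord_div P (hT0 x) (hT0 y)] at h2
    omega
  have heq : ∀ (x y : M.F) P, M.On x P → M.On y P → P.ord (T x) = P.ord (T y) := by
    intro x y P hx hy
    obtain ⟨i, hi⟩ := hB.cover x x.2
    obtain ⟨j, hj⟩ := hB.cover y y.2
    exact le_antisymm (hle y x y j P hj (h0 y j hj) hy) (hle x y x i P hi (h0 x i hi) hx)
  let c : Place K → ℝ := fun P => if h : M.Pr P then (P.ord (T h.choose) : ℝ) else 0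
  have hc : ∀ x P, M.On x P → c P = P.ord (T x) := fun x P hx => by
    have h : M.Pr P := ⟨x, hx⟩
    simp only [c, dif_pos h]
    rw [heq _ x P h.choose_spec hx]
  have hpr : ∀ P, c P ≠ 0 → M.Pr P := fun P h => by
    by_contra k
    exact h (dif_neg k)
  have hfin : (Function.support c).Finite := by
    have := isCompact_iff_compactSpace.1 M.cpt
    obtain ⟨s, hs⟩ := CompactSpace.elim_nhds_subcover
      (fun x : M.F => {y : M.F | ∃ i, (y : M.W) ∈ B.U i ∧ σ x i y ≠ 0}) fun x => by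
        obtain ⟨i, hi⟩ := hB.cover x x.2
        have k1 := continuousAt_subtype_val.eventually (p := fun y => y ∈ B.U i ∧ σ x i y ≠ 0)
          (Filter.Eventually.and ((hB.isOpen i).mem_nhds hi)
            ((sec_hol (hσ x) x.2 hi).ne_near (h0 x i hi)))
        exact k1.mono fun y hy => ⟨i, hy⟩
    refine (s.finite_toSet.biUnion fun x _ => hL.fin (T x)).subset fun P hP => ?_
    obtain ⟨y, hy⟩ := hpr P hP
    have k : y ∈ ⋃ x ∈ s, {y : M.F | ∃ i, (y : M.W) ∈ B.U i ∧ σ x i y ≠ 0} := hs ▸ mem_univ y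
    obtain ⟨x, hx, i, hi, hz⟩ := mem_iUnion₂.1 k
    refine mem_iUnion₂.2 ⟨x, hx, ⟨y, hy⟩, fun e => hP ?_⟩
    rw [hc y P hy, le_antisymm (hle x y y i P hi hz hy) (hle y x y i P hi (h0 y i hi) hy), e,
      Int.cast_zero]
  refine ⟨Finsupp.ofSupportFinite c hfin, fun P hP => hpr P (Finsupp.mem_support_iff.1 hP),
    fun P => ?_, fun x i hi => ⟨T x, σ x i, hT0 x, hc x, sec_hol (hσ x) x.2 hi, h0 x i hi,
      (hT x x i hi).mono fun y hy => by rw [hy, mul_comm]⟩⟩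
  by_cases h : M.Pr P
  · exact ⟨_, dif_pos h⟩
  · exact ⟨0, (dif_neg h).trans Int.cast_zero.symm⟩

end Me

open Me

/-- every line bundle has a meromorphic section with a divisor -/
theorem rep_of (hG : GGF) (M : Mdl n N K) (hP : M.Proj) (hL : Loc M) (L : Bd M.W) (hB : M.LB L) :
    ∃ (D : Div K) (s : L.ι → M.W → ℂ), M.Dv D ∧ IsInt D ∧ M.Rep L D s := by
  classical
  obtain ⟨A, hA⟩ := M.proj_iff.1 hP
  have hA' : M.LB A := hA.choose_spec.1
  obtain ⟨m₁, h1⟩ := hG n N M.toGeo A L hA hB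
  obtain ⟨m₂, h2⟩ := hG n N M.toGeo A _ hA (lb_triv _)
  set m := max m₁ m₂
  choose σ hσ hσ0 using fun x : M.F => h1 m (le_max_left _ _) x x.2
  choose τ hτ hτ0 using fun x : M.F => h2 m (le_max_right _ _) x x.2
  obtain ⟨x₀, hx₀⟩ := M.conn.nonempty
  obtain ⟨D₁, d1, i1, l1⟩ := gg_div M hL (lb_mul hB (lb_pow hA' m)) σ hσ hσ0 ⟨x₀, hx₀⟩
  obtain ⟨D₂, d2, i2, l2⟩ := gg_div M hL (lb_mul (lb_triv _) (lb_pow hA' m)) τ hτ hτ0 ⟨x₀, hx₀⟩
  let a : L.ι → A.ι → M.W → ℂ := fun i k => σ ⟨x₀, hx₀⟩ (i, k)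
  let b : A.ι → M.W → ℂ := fun k => τ ⟨x₀, hx₀⟩ ((), k)
  let V : M.W → Prop := fun y => ∀ i j k l, y ∈ L.U i → y ∈ L.U j → y ∈ A.U k → y ∈ A.U l →
    a i k y = L.g i j y * A.g k l y ^ m * a j l y
  let s : L.ι → M.W → ℂ := fun i y =>
    if h : (∃ k, y ∈ A.U k) ∧ V y then a i h.1.choose y / b h.1.choose y else 0
  refine ⟨D₁ - D₂, s, fun P hP => ?_, fun P => ?_, hB, fun i j y hi hj => ?_, fun x i hi => ?_⟩
  · rcases Finset.mem_union.1 (Finsupp.support_sub hP) with h | h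
    · exact d1 P h
    · exact d2 P h
  · obtain ⟨k1, e1⟩ := i1 P
    obtain ⟨k2, e2⟩ := i2 P
    exact ⟨k1 - k2, by rw [Finsupp.sub_apply, e1, e2, Int.cast_sub]⟩
  · by_cases h : (∃ k, y ∈ A.U k) ∧ V y
    · simp only [s, dif_pos h]
      have hk := h.1.choose_spec
      rw [h.2 i j _ _ hi hj hk hk, ← mul_div_assoc, lb_self hA' hk, one_pow, mul_one]
    · simp only [s, dif_neg h, mul_zero]
  · obtain ⟨k, hk⟩ := hA'.cover x x.2
    obtain ⟨t₁, u₁, n1, o1, p1, q1, r1⟩ := l1 x (i, k) ⟨hi, hk⟩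
    obtain ⟨t₂, u₂, n2, o2, p2, q2, r2⟩ := l2 x ((), k) ⟨trivial, hk⟩
    refine ⟨t₁ / t₂, fun y => u₁ y / u₂ y, div_ne_zero n1 n2, fun P hP => ?_, p1.div p2 q2,
      div_ne_zero q1 q2, ?_⟩
    · rw [Finsupp.sub_apply, o1 P hP, o2 P hP, P297Z.Pl.ord_div P n1 n2, Int.cast_sub]
    · filter_upwards [r1, r2, M.at_pt (M.val_div t₁ t₂) x,
        gen_of_nhds ((hB.isOpen i).mem_nhds hi), gen_of_nhds ((hA'.isOpen k).mem_nhds hk),
        gen_of_nhds (sec_at (hσ ⟨x₀, hx₀⟩) x.2), gen_of_nhds (sec_at (hτ ⟨x₀, hx₀⟩) x.2)]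
        with y k1 k2 k3 k4 k5 k6 k7
      have h : (∃ k, y ∈ A.U k) ∧ V y :=
        ⟨⟨k, k5⟩, fun i j k l h1 h2 h3 h4 => (k6 (i, k) ⟨h1, h3⟩).2 (j, l) ⟨h2, h4⟩⟩
      have hc := h.1.choose_spec
      have e1 : b h.1.choose y = 1 * A.g h.1.choose k y ^ m * b k y :=
        (k7 ((), _) ⟨trivial, hc⟩).2 ((), k) ⟨trivial, k5⟩
      have e2 : a i k y = u₁ y * M.val t₁ y := k1
      have e3 : b k y = u₂ y * M.val t₂ y := k2
      simp only [s, dif_pos h]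
      rw [h.2 i i _ k k4 k4 hc k5, e1, e2, e3, k3, lb_self hB k4, mul_div_mul_left _ _
        (mul_ne_zero one_ne_zero (pow_ne_zero m (hA'.ne_zero _ k y hc k5))), mul_div_mul_comm]

/-- **SEC** -/
theorem sec_of (hG : GGF) (hL : LOC n) : SEC n := fun N K _ _ M hP L hB =>
  let ⟨D, s, h1, h2, h3⟩ := rep_of hG M hP (hL N K M hP) L hB
  ⟨D, s, h1, h2, h3.chg, h3.loc⟩

end Vale.Agent.P277Z.Lb
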