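import Vale.Agent.P277Z.Lbd.Build
import Vale.Agent.P277Z.Lbd.Sec
import Vale.Agent.P277Z.Lbd.Can
import Vale.Agent.P277Z.Lbd.Mer

/-!
# P277, block LBD: divisors and line bundles
-/

namespace Vale.Agent.P277Z.Lb

theorem lbd {n N : ℕ} {K : Type} [Field K] [Algebra ℂ K] (M : Mdl n N K) (hL : Loc M) : Lbd M :=
  ⟨lbd_ex hL, lbd_sec M hL, lbd_fn M, lbd_nz M hL, lbd_mul M, lbd_pow M, lbd_amp hL, lbd_pos hL,
    lbd_can M hL⟩

theorem lbd_of {n : ℕ} (h : LOC n) : LBD n := fun N K _ _ M hM => lbd M (h N K M hM)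

end Vale.Agent.P277Z.Lb
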