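import Vale.Agent.P277Z.Luf.Hol
import Vale.Agent.P277Z.Lo.Base
import Vale.Agent.P277Z.Bir.Defs

/-!
# P277: the equation of a prime divisor is coprime to the functions which do not vanish on it
-/

open scoped Manifold ContDiff
open Filter Topology Set
open Vale.Agent.P272.K (Cm Chart At)
open Vale.Agent.P297Z

noncomputable section

namespace Vale.Agent.P277Z

/-- coprime germs have no common hypersurface of zeros -/
theorem Cop.not_zero {n : ℕ} {W : Type} [TopologicalSpace W] [ChartedSpace (Cm n) W]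
    [IsManifold 𝓘(ℂ, Cm n) ω W] {a b c : W → ℂ} {x : W} (h : Cop n a b x) (ha : Hol n a x)
    (hb : Hol n b x) (h0 : Nz b x) (hc : Hol n c x) (c0 : c x = 0) :
    ¬ ∀ᶠ y in 𝓝 x, c y = 0 → b y = 0 ∧ a y = 0 := fun k => by
  have he := at_chart (n := n) x
  have c1 : Nz c x := fun k' => h0 (by filter_upwards [k, k'] with y h1 h2 using (h1 h2).1)
  obtain ⟨p, hp, hd⟩ := WfDvdMonoid.exists_irreducible_factor
    (fun u => (isUnit_gW he hc).1 u c0) ((gW_ne_zero he hc).2 c1)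
  obtain ⟨p, hp', rfl⟩ := gW_surj he p
  obtain ⟨d, -, hd⟩ := (gW_dvd he hp' hc).1 hd
  have hr := (red_near he hp' hp.prime.isRadical).self_of_nhds
  have k' : ∀ᶠ y in 𝓝 x, p y = 0 → b y = 0 ∧ a y = 0 := by
    filter_upwards [k, hd] with y h1 h2 h3 using h1 (by rw [h2, h3, mul_zero])
  exact hp.not_isUnit ((cop_iff he ha hb h0).1 h
    ((gW_dvd he hp' hb).2 (hr b hb (k'.mono fun _ h1 h2 => (h1 h2).1)))
    ((gW_dvd he hp' ha).2 (hr a ha (k'.mono fun _ h1 h2 => (h1 h2).2))))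

/-- denominators which are coprime to the numerators -/
def DenM {n N : ℕ} {K : Type} [Field K] [Algebra ℂ K] (M : Mdl n N K) : Prop :=
  ∀ (h : K) (x : M.F), ∃ τ ∈ M.O x, τ ≠ 0 ∧ τ * h ∈ M.O x ∧ Cop n (M.val (τ * h)) (M.val τ) x

variable {n N : ℕ} {K : Type} [Field K] [Algebra ℂ K] {M : Mdl n N K}

theorem DenM.cop (H : DenM M) {x : M.F} {P : P297.Place K} {t b : K} (ht : M.Gn x P t)
    (hb : b ∈ M.O x) (b0 : b ≠ 0) (h : P.ord b = 0) : Cop n (M.val b) (M.val t) x := by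
  have t0 : t ≠ 0 := fun e => by simpa [e] using ht.ord
  obtain ⟨τ, h1, h2, h3, h4⟩ := H (b / t) x
  have h5 := Pl.ord_nonneg_of_mem P (ht.le _ h3)
  rw [Pl.ord_mul P h2 (div_ne_zero b0 t0), Pl.ord_div P b0 t0, h, ht.ord] at h5
  have h6 := ht.dvd τ h1 (by omega)
  have e1 : ∀ᶠ y in 𝓝 (x : M.W), M.val τ y = M.val (τ / t) y * M.val t y := by
    simpa only [div_mul_cancel₀ _ t0] using M.nhds_mul h6 ht.mem
  have e2 : ∀ᶠ y in 𝓝 (x : M.W), M.val (τ * (b / t)) y = M.val (τ / t) y * M.val b y := by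
    simpa only [div_mul_eq_mul_div, mul_div_assoc] using M.nhds_mul h6 hb
  intro c hc ⟨d, hd, k⟩
  refine Dvd.trans ⟨_, h6, e1⟩ (h4 c hc ⟨d, hd, ?_⟩)
  filter_upwards [e1, e2, k] with y k1 k2 k3
  rw [k1, k2]
  linear_combination M.val (τ / t) y * k3

theorem DenM.copM (H : DenM M) : CopM M := fun x P t ht b hb b0 h => by
  have t0 : Nz (M.val t) x := M.not_zero fun e => by simpa [e] using ht.ord
  filter_upwards [(H.cop ht hb b0 h).near hb ht.mem t0, Hol.near hb, Hol.near ht.mem,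
    t0.near ht.mem] with w h1 h2 h3 h4 c hc c0 using h1.not_zero h2 h3 h4 hc c0

theorem cop_of (h : ForM n fun _ _ _ _ M => DenM M) : COP n :=
  fun N K _ _ M hM => (h N K M hM).copM

end Vale.Agent.P277Z
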