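import Vale.Agent.P277Z.Luf.Hol

/-!
# P277, block LBD: local equations define a line bundle near the fibre
-/

open scoped Manifold ContDiff
open Filter Topology Set
open Vale.Agent.P272.K (Cm Chart At)
open Vale.Agent.P285.H281.FD (Bd)

noncomputable section

namespace Vale.Agent.P277Z.Lb

section top

variable {W : Type} [TopologicalSpace W]

/-- a finite cover on whose overlaps given open conditions hold -/
theorem shrink [T2Space W] {F : Set W} (hF : IsCompact F) (V : F → Set W)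
    (hV : ∀ x : F, V x ∈ 𝓝 (x : W)) (R : F → F → W → Prop)
    (hR : ∀ x x' y, y ∈ F → y ∈ V x → y ∈ V x' → ∀ᶠ z in 𝓝 y, R x x' z) :
    ∃ (T : Finset F) (U : T → Set W), (∀ i, IsOpen (U i) ∧ U i ⊆ V i) ∧ (∀ y ∈ F, ∃ i, y ∈ U i) ∧
      ∀ i j, ∀ z ∈ U i, z ∈ U j → R i j z := by
  obtain ⟨T, hT⟩ := hF.elim_nhds_subcover' (fun x h => interior (V ⟨x, h⟩))
    fun x h => interior_mem_nhds.2 (hV ⟨x, h⟩)
  obtain ⟨C, hC, hCV, e⟩ := hF.finite_compact_cover T (fun x => interior (V x))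
    (fun _ _ => isOpen_interior) hT
  have hCF : ∀ i : T, C i ⊆ F := fun i y hy => by
    rw [e]; exact mem_iUnion₂.2 ⟨i, i.2, hy⟩
  have h : ∀ i j : T, ∃ A ∈ 𝓝ˢ (C i), ∃ B ∈ 𝓝ˢ (C j), {z | R i j z} = A ∩ B := fun i j => by
    rw [← mem_inf_iff, ← (hC i).nhdsSet_inter_eq (hC j)]
    exact eventually_nhdsSet_iff_forall.2 fun y hy => hR _ _ y (hCF i hy.1)
      (interior_subset (hCV i hy.1)) (interior_subset (hCV j hy.2))
  choose A hA B hB hAB using h
  refine ⟨T, fun i => interior (V i ∩ ⋂ j, A i j ∩ B j i),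
    fun i => ⟨isOpen_interior, interior_subset.trans inter_subset_left⟩, fun y hy => ?_,
    fun i j z hi hj => ?_⟩
  · rw [e] at hy
    obtain ⟨i, hi, k⟩ := mem_iUnion₂.1 hy
    refine ⟨⟨i, hi⟩, mem_interior_iff_mem_nhds.2
      (inter_mem (mem_interior_iff_mem_nhds.1 (hCV i k)) (iInter_mem.2 fun j => inter_mem ?_ ?_))⟩
    · exact nhds_le_nhdsSet k (hA ⟨i, hi⟩ j)
    · exact nhds_le_nhdsSet k (hB j ⟨i, hi⟩)
  · have k : z ∈ A i j ∩ B i j :=
      ⟨(mem_iInter.1 (interior_subset hi).2 j).1, (mem_iInter.1 (interior_subset hj).2 i).2⟩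
    rw [← hAB] at k
    exact k

theorem gen_imp {U : Set W} {p : W → Prop} (h : ∀ y ∈ U, ∀ᶠ z in gen {y}, p z) (y : W) :
    ∀ᶠ z in gen {y}, z ∈ U → p z := by
  refine ⟨univ, isOpen_univ, subset_univ _, fun x _ => ?_⟩
  by_cases hx : x ∈ closure U
  · refine closure_minimal (fun z hz => ?_) isClosed_closure hx
    obtain ⟨_, -, h2, h3⟩ := h z hz
    exact closure_mono (interior_mono fun w hw (_ : w ∈ U) => (hw : p w)) (h3 (h2 rfl))
  · exact subset_closure (interior_maximal (fun w hw k => (hw (subset_closure k)).elim)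
      isClosed_closure.isOpen_compl hx)

/-- the continuous extension -/
def reg (a : W → ℂ) (y : W) : ℂ := limUnder (gen {y}) a

theorem reg_eq {a u : W → ℂ} {y : W} (hu : ContinuousAt u y) (h : ∀ᶠ z in gen {y}, a z = u z) :
    reg a y = u y :=
  ((hu.tendsto.mono_left (gen_le_nhds y)).congr' (h.mono fun _ => Eq.symm)).limUnder_eq

theorem ev_sub {F : Set W} {x : F} {p : F → Prop} (h : ∀ᶠ y in 𝓝 x, p y) :
    ∀ᶠ y in 𝓝 (x : W), ∀ hy : y ∈ F, p ⟨y, hy⟩ := by
  rw [nhds_subtype, eventually_comap] at h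
  exact h.mono fun y k hy => k ⟨y, hy⟩ rfl

end top

variable {n N : ℕ}

theorem reg_near {W : Type} [TopologicalSpace W] [ChartedSpace (Cm n) W]
    [IsManifold 𝓘(ℂ, Cm n) ω W] {a u : W → ℂ} {y : W} (hu : Hol n u y)
    (h : ∀ᶠ z in gen {y}, a z = u z) : ∀ᶠ z in 𝓝 y, u z = reg a z := by
  filter_upwards [hu.near, gen_near h] with z h1 h2 using (reg_eq h1.cont h2).symm

/-- functions `a x` near the points `x` of `F` whose quotients are holomorphic are the
coefficients of a section of a line bundle -/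
theorem glue (G : Geo n N) (a : G.F → G.W → ℂ) (V : G.F → Set G.W)
    (hV : ∀ x : G.F, V x ∈ 𝓝 (x : G.W))
    (h0 : ∀ x, ∀ y ∈ V x, ∀ᶠ z in gen {y}, a x z ≠ 0)
    (h : ∀ x x' y, y ∈ G.F → y ∈ V x → y ∈ V x' →
      ∃ u, Hol n u y ∧ ∀ᶠ z in gen {y}, a x z = u z * a x' z) :
    ∃ (L : Bd G.W) (c : L.ι → G.F) (s : L.ι → G.W → ℂ), Finite L.ι ∧ G.LB L ∧
      (∀ i, L.U i ⊆ V (c i)) ∧
      (∀ i j y, y ∈ L.U i → y ∈ L.U j → ∀ᶠ z in gen {y}, a (c i) z = L.g i j z * a (c j) z) ∧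
      (∀ i j y, y ∈ L.U i → y ∈ L.U j → s i y = L.g i j y * s j y) ∧
      ∀ i y, ∀ᶠ z in gen {y}, s i z = a (c i) z := by
  classical
  obtain ⟨T, U, hU, hc, hR⟩ := shrink G.cpt V hV
    (fun x x' y => ∃ u, Hol n u y ∧ ∀ᶠ z in gen {y}, a x z = u z * a x' z)
    fun x x' y k1 k2 k3 => by
      obtain ⟨u, hu, k⟩ := h x x' y k1 k2 k3
      filter_upwards [hu.near, gen_near k] with z h1 h2 using ⟨u, h1, h2⟩
  set g : T → T → G.W → ℂ := fun i j => reg fun z => a i z / a j z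
  have key : ∀ i j y, y ∈ U i → y ∈ U j →
      Hol n (g i j) y ∧ ∀ᶠ z in gen {y}, a i z = g i j z * a j z := fun i j y hi hj => by
    obtain ⟨u, hu, k⟩ := hR i j y hi hj
    have e := reg_near (a := fun z => a i z / a j z) hu (by
      filter_upwards [k, h0 j y ((hU j).2 hj)] with z h1 h2 using by
        rw [h1, mul_div_cancel_right₀ _ h2])
    exact ⟨hu.congr e, by filter_upwards [k, gen_of_nhds e] with z h1 h2 using h1.trans (by rw [h2])⟩
  have coc : ∀ i j k y, y ∈ U i → y ∈ U j → y ∈ U k → g i j y * g j k y = g i k y :=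
    fun i j k y hi hj hk => eq_of_gen ((key i j y hi hj).1.mul (key j k y hj hk).1).cont
      (key i k y hi hk).1.cont (by
        filter_upwards [(key i j y hi hj).2, (key j k y hj hk).2, (key i k y hi hk).2,
          h0 k y ((hU k).2 hk)] with z h1 h2 h3 h4
        exact mul_right_cancel₀ h4 (by rw [← h3, h1, h2, mul_assoc]))
  have one : ∀ i y, y ∈ U i → g i i y = 1 := fun i y hi =>
    reg_eq continuousAt_const ((h0 i y ((hU i).2 hi)).mono fun z => div_self)
  refine ⟨⟨T, U, g⟩, Subtype.val, fun i y =>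
    if ∀ i j, y ∈ U i → y ∈ U j → a i y = g i j y * a j y then a i y else 0, inferInstance,
    ⟨fun i => (hU i).1, hc, fun i j y hi hj => (key i j y hi hj).1, fun i j y hi hj =>
      left_ne_zero_of_mul (((coc i j i y hi hj hi).trans (one i y hi)).trans_ne one_ne_zero), coc⟩,
    fun i => (hU i).2, fun i j y hi hj => (key i j y hi hj).2, fun i j y hi hj => ?_,
    fun i y => ?_⟩
  · dsimp only
    split_ifs with k
    exacts [k i j hi hj, (mul_zero _).symm]
  · filter_upwards [eventually_all.2 fun i => eventually_all.2 fun j =>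
      gen_imp (U := U i ∩ U j) (fun y k => (key i j y k.1 k.2).2) y] with z hz
    exact if_pos fun i j hi hj => hz i j ⟨hi, hj⟩

end Vale.Agent.P277Z.Lb
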